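import Vale.Agent.P095.Main
import Vale.Agent.P095.TensAct

namespace Vale.Agent.Results.P095.Full

open Vale.Agent.P095 Vale.Agent.P101
open scoped TensorProduct

theorem result {G A Z B H K : Type*} [Group G] [Countable G] (hG : IsAmenable G)
    [NonUnitalCStarAlgebra A] [TopologicalSpace.SeparableSpace A]
    (hs : IsSimple A) (hn : IsNuclear A)
    [CStarAlgebra Z] (hZ : S.IsJiangSu Z) [NonUnitalCStarAlgebra B]
    [NormedAddCommGroup H] [InnerProductSpace ℂ H] [CompleteSpace H]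
    [NormedAddCommGroup K] [InnerProductSpace ℂ K] [CompleteSpace K]
    (π : A →⋆ₙₐ[ℂ] (H →L[ℂ] H)) (σ : Z →⋆ₐ[ℂ] (K →L[ℂ] K))
    (hπ : Function.Injective π) (hσ : Function.Injective σ)
    (j : B →⋆ₙₐ[ℂ]
      (UniformSpace.Completion (H ⊗[ℂ] K) →L[ℂ] UniformSpace.Completion (H ⊗[ℂ] K)))
    (t : A → Z → B)
    (hj : IsClosedSpan j t fun a z => (TensorProduct.mapL (π a) (σ z)).completion)
    (hstab : Nonempty (A ≃⋆ₐ[ℂ] B))
    (α : G →* (A ≃⋆ₐ[ℂ] A)) :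
    ∃ β : G →* (B ≃⋆ₐ[ℂ] B), (∀ g a z, β g (t a z) = t (α g a) z) ∧ CocycleConjugate α β :=
  (exists_tensor_action π σ hπ j t hj α).imp fun β hβ =>
    ⟨hβ, main_thm hG hs hn hZ π σ hπ hσ j t hj hstab α β hβ⟩

end Vale.Agent.Results.P095.Full
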